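import Mathlib.Combinatorics.SimpleGraph.Cayley
import Mathlib.Combinatorics.SimpleGraph.Metric
import Mathlib.GroupTheory.ResiduallyFinite
import Mathlib.GroupTheory.OrderOfElement

namespace Vale.Agent.P186

/-- Every geodesic triangle of the connected graph `Γ` is `δ`-thin: whenever `p`, `q`, `r` are
geodesic edge paths forming the three sides of a triangle, each vertex on the side `p` is at
distance at most `δ` from a vertex lying on one of the other two sides. -/
def ThinTriangles {V : Type*} (Γ : SimpleGraph V) (δ : ℕ) : Prop :=
  ∀ (x y z : V) (p : Γ.Walk x y) (q : Γ.Walk y z) (r : Γ.Walk z x),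
    p.length = Γ.dist x y → q.length = Γ.dist y z → r.length = Γ.dist z x →
    ∀ v ∈ p.support, ∃ w : V, (w ∈ q.support ∨ w ∈ r.support) ∧ Γ.dist v w ≤ δ

/-- A group is word-hyperbolic if for some finite generating set its Cayley graph has
`δ`-thin geodesic triangles for some `δ`. -/
def IsHyperbolicGroup (G : Type*) [Group G] : Prop :=
  ∃ S : Finset G, Subgroup.closure (S : Set G) = ⊤ ∧
    ∃ δ : ℕ, ThinTriangles (SimpleGraph.mulCayley (S : Set G)) δ

/-- The finite residual: the intersection of all subgroups of finite index. -/
def finiteResidual (G : Type*) [Group G] : Subgroup G :=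
  ⨅ H : {H : Subgroup G // H.FiniteIndex}, H.1

/-- Some subgroup of finite index has no element of finite order other than `1`. -/
def IsVirtuallyTorsionFree (G : Type*) [Group G] : Prop :=
  ∃ H : Subgroup G, H.FiniteIndex ∧ ∀ h ∈ H, IsOfFinOrder h → h = 1

end Vale.Agent.P186
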